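import Vale.Agent.P011UZ2.Apx
import Vale.Agent.P011.H380.Good7.SplitMax
import Vale.Agent.P011.H210.Adic
import Vale.Agent.P011.H271.KSF

/-!
Regular elements with prescribed splitting, and the reduced norms near one.
-/

open Module Filter Polynomial Topology

namespace Vale.Agent.P011UZ2

open Vale.Agent.P011.H738 (Place)
open Vale.Agent.P011.W (Spl spl_iff)
open Vale.Agent.P011.H210 (SR)
open Vale.Agent.P011UE Vale.Agent.P011

variable {k D : Type} [Field k] [DivisionRing D] [Algebra k D] [FiniteDimensional k D] {n : ℕ}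
  {N : D →* k}

/-- The minimal polynomial of an element which is split regular at some place. -/
theorem of_SR (h : Dv k D n N) {R : Type} [Field R] [Algebra k R]
    (g : D →ₐ[k] Matrix (Fin n) (Fin n) R) {y : D} (hy : g y ∈ SR (Fin n) R) :
    (minpoly k y).natDegree = n ∧ (minpoly k y).Separable ∧
      ((minpoly k y).map (algebraMap k R)).Splits := by
  have := h.central
  obtain ⟨u, a, ha, hu⟩ := hy
  have h0 : (g y).charpoly = ∏ i, (X - C (a i)) := by
    rw [hu, Matrix.coe_units_inv, Matrix.charpoly_units_conj, Matrix.charpoly_diagonal]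
  have h1 : (g y).charpoly.Splits := h0 ▸ Splits.prod fun i _ => Splits.X_sub_C _
  have h2 : (g y).charpoly.Separable := h0 ▸ separable_prod_X_sub_C_iff.2 ha
  have hm : (minpoly k y).Monic := minpoly.monic (IsIntegral.of_finite k _)
  have h5 : (g y).charpoly.natDegree = n := by
    rw [Matrix.charpoly_natDegree_eq_dim, Fintype.card_fin]
  have h6 : (g y).charpoly = (minpoly k y).map (algebraMap k R) :=
    (eq_of_monic_of_dvd_of_natDegree_le (Matrix.charpoly_monic _) (hm.map _)
      (H380.Good7.charpoly_dvd g _ h1 h2) (by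
        rw [natDegree_map, h5]
        exact H380.Good7.natDegree_le h.rank _)).symm
  refine ⟨?_, (separable_map _).1 (h6 ▸ h2), h6 ▸ h1⟩
  rw [← h5, h6, natDegree_map]

/-- An open set of split regular elements, in coordinates. -/
theorem loc (h : Dv k D n N) {R : Type} [NormedField R] [CompleteSpace R] (hR : ∃ x : R, 1 < ‖x‖)
    {φ : k →+* R} (hs : Spl D n φ) : ∃ (r : Fin (finrank k D) → R) (ε : ℝ), 0 < ε ∧
      ∀ y : D, (∀ l, ‖φ ((finBasis k D).repr y l) - r l‖ < ε) → (minpoly k y).natDegree = n ∧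
        (minpoly k y).Separable ∧ ((minpoly k y).map φ).Splits := by
  have := h.central
  have := h.infinite
  let _ := φ.toAlgebra
  obtain ⟨g⟩ := (spl_iff (R := R)).1 hs
  obtain ⟨r, hr⟩ := H380.Good7.exists_coord h.rank g (finBasis k D)
    (Matrix.diagonal fun i : Fin n => φ (Infinite.natEmbedding k i))
  have h1 : Continuous fun s : Fin (finrank k D) → R => ∑ l, s l • g (finBasis k D l) := by
    fun_prop
  have h2 := h1.continuousAt (x := r) |>.preimage_mem_nhds ((H210.isOpen_SR' hR).mem_nhds (by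
    rw [hr]
    exact H210.diagonal_mem_SR
      (φ.injective.comp ((Infinite.natEmbedding k).injective.comp Fin.val_injective))))
  obtain ⟨ε, hε, h3⟩ := Metric.mem_nhds_iff.1 h2
  refine ⟨r, ε, hε, fun y hy => of_SR h g ?_⟩
  have h4 := h3 (a := fun l => φ ((finBasis k D).repr y l))
    ((dist_pi_lt_iff hε).2 fun l => (dist_eq_norm _ _).trans_lt (hy l))
  have h5 : g y = ∑ l, φ ((finBasis k D).repr y l) • g (finBasis k D l) := by
    conv_lhs => rw [← (finBasis k D).sum_repr y, map_sum]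
    exact Finset.sum_congr rfl fun l _ => by
      rw [map_smul]
      exact (algebraMap_smul R _ _).symm
  exact h5 ▸ h4

theorem comp_nt (v : Place k) : ∃ x : v.comp, 1 < ‖x‖ := by
  obtain ⟨π, hπ⟩ := H73.Sp.exists_lt_one v
  refine ⟨algebraMap k _ (π : k)⁻¹, ?_⟩
  rw [H271.norm_alg, map_inv₀]
  exact (one_lt_inv₀ (v.abv.pos π.ne_zero)).2 hπ

/-- The regular elements contain an open set, for the places of `j` and the real places. -/
theorem reg_open (h : Dv k D n N) {j : Finset (Place k)} (hne : j.Nonempty)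
    (hj : ∀ v ∈ j, Sp D n v) : ∃ (x : Place k → Fin (finrank k D) → k)
      (r : (k →+* ℝ) → Fin (finrank k D) → ℝ) (ε : ℝ), 0 < ε ∧ ∀ y : D,
        (∀ l, ∀ v ∈ j, v.abv ((finBasis k D).repr y l - x v l) < ε) →
        (∀ l, ∀ φ : k →+* ℝ, |φ ((finBasis k D).repr y l) - r φ l| < ε) → Reg n j y := by
  have := fin_real h.glob
  choose! a δ hδ ha using fun v hv => loc h (comp_nt v) (hj v hv)
  choose! r η hη hr using fun (φ : k →+* ℝ) hφ => loc h ⟨2, by norm_num⟩ (φ := φ) hφ
  obtain ⟨ε, hε, h1, h2⟩ : ∃ ε : ℝ, 0 < ε ∧ (∀ v ∈ j, ε < δ v) ∧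
      ∀ φ : k →+* ℝ, Spl D n φ → ε < η φ := by
    have h1 : ∀ᶠ ε in 𝓝[>] (0 : ℝ), ∀ v ∈ j, ε < δ v :=
      (eventually_all_finset j).2 fun v hv => nhdsWithin_le_nhds (gt_mem_nhds (hδ v hv))
    have h2 : ∀ᶠ ε in 𝓝[>] (0 : ℝ), ∀ φ : k →+* ℝ, Spl D n φ → ε < η φ :=
      eventually_all.2 fun φ => eventually_imp_distrib_left.2 fun hφ =>
        nhdsWithin_le_nhds (gt_mem_nhds (hη φ hφ))
    exact (eventually_mem_nhdsWithin.and (h1.and h2)).exists
  choose x hx using fun (v : Place k) l => H271.dense_alg v (a v l) hε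
  refine ⟨x, r, ε, hε, fun y h3 h4 => ?_⟩
  have h5 := fun v hv => ha v hv y fun l => by
    have e : algebraMap k v.comp ((finBasis k D).repr y l) - a v l =
        algebraMap k v.comp ((finBasis k D).repr y l - x v l) +
          -(a v l - algebraMap k v.comp (x v l)) := by
      rw [map_sub]
      ring
    rw [e]
    refine ((IsUltrametricDist.norm_add_le_max _ _).trans_lt (max_lt ?_ ?_)).trans (h1 v hv)
    · rw [H271.norm_alg]
      exact h3 l v hv
    · rw [norm_neg]
      exact hx v l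
  obtain ⟨v, hv⟩ := hne
  refine ⟨(h5 v hv).1, (h5 v hv).2.1, fun w hw => (h5 w hw).2.2, fun φ hφ => ?_⟩
  obtain ⟨h6, -, h7⟩ := hr φ hφ y fun l => (h4 l φ).trans (h2 φ hφ)
  refine h7.exists_eval_eq_zero fun h0 => ?_
  rw [degree_map] at h0
  have h8 : (minpoly k y).natDegree = 0 := natDegree_eq_of_degree_eq_some h0
  have := h.le
  omega

omit [FiniteDimensional k D] in
theorem reg_mono {j j' : Finset (Place k)} (hj : j ⊆ j') {y : D} (h : Reg n j' y) : Reg n j y :=
  ⟨h.deg, h.sep, fun v hv => h.spl v (hj hv), h.real⟩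

/-- There are regular elements. -/
theorem exists_reg (hR : RAM) (h : Dv k D n N) {j : Finset (Place k)} (hj : ∀ v ∈ j, Sp D n v) :
    ∃ y : D, Reg n j y := by
  classical
  have := fin_real h.glob
  obtain ⟨h1, h2⟩ := hR k D n N h
  obtain ⟨v, hv⟩ := h1.exists_notMem
  obtain ⟨x, r, ε, hε, h3⟩ := reg_open h (Finset.insert_nonempty v j) fun w hw =>
    (Finset.mem_insert.1 hw).elim (fun e => e ▸ not_not.1 hv) (hj w)
  choose y h4 h5 using fun l => approx (insert v j) (fun w => x w l) (fun φ => r φ l) hε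
  obtain ⟨z, rfl⟩ := (finBasis k D).equivFun.surjective y
  exact ⟨z, reg_mono (Finset.subset_insert v j) (h3 z h4 h5)⟩

/-- **The reduced norms near one.** -/
theorem nsur (hR : RAM) (hA : ATL) : NSUR := by
  intro k D _ _ _ _ n N h T hT hs O hO
  obtain ⟨U, hU, hUO⟩ := exists_sub hO
  obtain ⟨y, hy⟩ := exists_reg hR h (j := ∅) (by simp)
  obtain ⟨V, hV, h1⟩ := hA k D n N h T hT y hy U hU
  refine mem_of_superset hV fun x hx h2 h3 => ?_
  obtain ⟨u, hu, h4⟩ := h1 U (fun _ hu _ => hu) (fun j hj => (exists_reg hR h fun v hv =>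
    hs v (Finset.disjoint_left.1 hj hv)).imp fun _ e => ⟨e, U, hU, fun _ hu _ => hu⟩) x hx h2 h3
  exact ⟨u, hUO u hu, h4⟩

end Vale.Agent.P011UZ2
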