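import Vale.Agent.P011UE.Kit
import Vale.Agent.P011.H73.Sp1

/-!
Weak approximation at finitely many finite places and at all the real places.
-/

namespace Vale.Agent.P011UZ2

open Vale.Agent.P011L (Glob)
open Vale.Agent.P011.H738 (Place)
open Vale.Agent.P011

variable {k : Type} [Field k]

/-- A global field has finitely many real places. -/
theorem fin_real (h : Glob k) : Finite (k →+* ℝ) := by
  rcases h with h | ⟨F, _, _, _, -⟩
  · infer_instance
  · refine @Finite.of_subsingleton _ ⟨fun φ => ?_⟩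
    have : CharZero F :=
      ((φ.comp (algebraMap (RatFunc F) k)).comp (RatFunc.C : F →+* RatFunc F)).charZero
    have : Infinite F := .of_injective _ Nat.cast_injective
    exact (not_finite F).elim

/-- The absolute values of the finite and of the real places. -/
noncomputable def ab : Place k ⊕ (k →+* ℝ) → AbsoluteValue k ℝ
  | .inl v => v.abv
  | .inr φ => NumberField.place φ

theorem ab_inr (φ : k →+* ℝ) (x : k) : ab (.inr φ) x = |φ x| := rfl

theorem ab_nt (p : Place k ⊕ (k →+* ℝ)) : (ab p).IsNontrivial := by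
  rcases p with v | φ
  · exact H73.Sp.place_nontrivial v
  · have : CharZero k := φ.charZero
    refine ⟨2, two_ne_zero, ?_⟩
    rw [ab_inr, map_ofNat]
    norm_num

theorem mixed (v : Place k) (φ : k →+* ℝ) : ¬(ab (.inl v)).IsEquiv (ab (.inr φ)) := by
  intro h
  have h1 : v.abv 2 ≤ v.abv 1 := by
    rw [← one_add_one_eq_two]
    exact (v.nonarch 1 1).trans_eq (max_self _)
  have h2 := (h 2 1).1 h1
  rw [ab_inr, ab_inr, map_ofNat, map_one] at h2
  norm_num at h2

theorem real_eq {φ ψ : k →+* ℝ} (h : (ab (.inr φ)).IsEquiv (ab (.inr ψ))) : φ = ψ := by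
  have : CharZero k := φ.charZero
  have key : ∀ {φ ψ : k →+* ℝ}, (ab (.inr φ)).IsEquiv (ab (.inr ψ)) → ∀ a, ψ a ≤ φ a := by
    intro φ ψ h a
    by_contra h1
    obtain ⟨q, h2, h3⟩ := exists_rat_btwn (not_le.1 h1)
    obtain ⟨p, h4⟩ := exists_rat_lt (φ a)
    have h5 := (h (a - p) (q - p)).1 (by
      rw [ab_inr, ab_inr, map_sub, map_sub, map_ratCast, map_ratCast, abs_of_pos (by linarith),
        abs_of_pos (by linarith)]
      linarith)
    rw [ab_inr, ab_inr, map_sub, map_sub, map_ratCast, map_ratCast, abs_of_pos (by linarith),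
      abs_of_pos (by linarith)] at h5
    linarith
  exact RingHom.ext fun a => le_antisymm (key h.symm a) (key h a)

theorem ab_ineq {p q : Place k ⊕ (k →+* ℝ)} (h : (ab p).IsEquiv (ab q)) : p = q := by
  rcases p with v | φ <;> rcases q with w | ψ
  · rw [H73.Sp.place_eq_of_isEquiv h]
  · exact (mixed v ψ h).elim
  · exact (mixed w φ h.symm).elim
  · rw [real_eq h]

/-- **Weak approximation.** -/
theorem approx [Finite (k →+* ℝ)] (T : Finset (Place k)) (x : Place k → k)
    (r : (k →+* ℝ) → ℝ) {ε : ℝ} (hε : 0 < ε) :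
    ∃ y : k, (∀ v ∈ T, v.abv (y - x v) < ε) ∧ ∀ φ : k →+* ℝ, |φ y - r φ| < ε := by
  have := Fintype.ofFinite (k →+* ℝ)
  have hd := AbsoluteValue.denseRange_algebraMap_pi (F := k)
    (v := fun p : T ⊕ (k →+* ℝ) => ab (p.map Subtype.val id)) (fun _ => ab_nt _)
    fun p q hpq h => hpq (Subtype.val_injective.sumMap Function.injective_id (ab_ineq h))
  choose q h1 h2 using fun φ : k →+* ℝ => exists_rat_btwn (sub_lt_self (r φ) (half_pos hε))
  obtain ⟨y, hy⟩ := (Metric.denseRange_iff.mp hd)
    (fun p => WithAbs.toAbs _ (p.elim (fun v : T => x v) fun φ => (q φ : k))) _ (half_pos hε)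
  rw [dist_pi_lt_iff (half_pos hε)] at hy
  refine ⟨y, fun v hv => ?_, fun φ => ?_⟩
  · have h3 := hy (.inl ⟨v, hv⟩)
    rw [dist_comm, dist_eq_norm] at h3
    exact lt_trans h3 (half_lt_self hε)
  · have h3 := hy (.inr φ)
    rw [dist_comm, dist_eq_norm] at h3
    have h4 : |φ (y - q φ)| < ε / 2 := h3
    have : CharZero k := φ.charZero
    rw [map_sub, map_ratCast, abs_lt] at h4
    rw [abs_lt]
    constructor <;> linarith [h1 φ, h2 φ, h4.1, h4.2]

end Vale.Agent.P011UZ2
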